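import Vale.Agent.P352X.Api2
import Vale.Agent.P352X.Api3a

/-!
# P352X, row SYM, part A: the wave operator and the special conformal generator (helper64)
-/

set_option linter.all false

open MeasureTheory Filter Topology Set
open scoped SchwartzMap ComplexConjugate ContDiff

namespace Vale.Agent.P352X.Sy

open Vale.Agent.P352.GF Vale.Agent.P352.BW Vale.Agent.P352.H246
open Vale.Agent.P352.H496 Vale.Agent.P352.H755 Vale.Agent.P352.H15 Ap

noncomputable section

variable {f g u : Fn} {m n : Ix} {x : V}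

theorem line_eq (x : V) (m : Ix) (t : ℝ) : (fun n => x n + bas m t n) = x + t • bas m 1 := by
  funext n
  simp [bas]

theorem pd_fd (hf : DifferentiableAt ℝ f x) : pd m f x = fderiv ℝ f x (bas m 1) := by
  rw [pd]
  simp only [line_eq]
  exact hf.lineDeriv_eq_fderiv

theorem pd_fd' (hf : ContDiff ℝ ∞ f) : pd m f = fun x => fderiv ℝ f x (bas m 1) :=
  funext fun x => pd_fd (hf.differentiable (by simp) x)

theorem sm_pd (m : Ix) (hf : ContDiff ℝ ∞ f) : ContDiff ℝ ∞ (pd m f) := by
  rw [pd_fd' hf]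
  exact (hf.fderiv_right (m := ∞) (by simp)).clm_apply contDiff_const

theorem pd_mul (hu : ContDiff ℝ ∞ u) (hf : ContDiff ℝ ∞ f) :
    pd m (fun x => u x * f x) x = pd m u x * f x + u x * pd m f x := by
  have a := hu.differentiable (by simp) x
  have b := hf.differentiable (by simp) x
  rw [pd_fd (a.fun_mul b), pd_fd a, pd_fd b, fderiv_fun_mul a b]
  simp
  ring

theorem pd_add (hu : ContDiff ℝ ∞ u) (hf : ContDiff ℝ ∞ f) :
    pd m (fun x => u x + f x) x = pd m u x + pd m f x := by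
  have a := hu.differentiable (by simp) x
  have b := hf.differentiable (by simp) x
  rw [pd_fd (a.fun_add b), pd_fd a, pd_fd b, fderiv_fun_add a b]
  simp

theorem pd_cmul (c : ℂ) (hf : ContDiff ℝ ∞ f) : pd m (fun x => c * f x) x = c * pd m f x := by
  have b := hf.differentiable (by simp) x
  rw [pd_fd (b.const_mul c), pd_fd b, fderiv_const_mul b]
  simp

theorem pd_sum {F : Ix → Fn} (hF : ∀ k, ContDiff ℝ ∞ (F k)) :
    pd m (fun x => ∑ k, F k x) x = ∑ k, pd m (F k) x := by
  have b (k) := (hF k).differentiable (by simp) x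
  rw [pd_fd (DifferentiableAt.fun_sum fun k _ => b k), fderiv_fun_sum fun k _ => b k]
  simp only [ContinuousLinearMap.sum_apply, pd_fd (b _)]

theorem pd_comm (hf : ContDiff ℝ ∞ f) : pd m (pd n f) x = pd n (pd m f) x := by
  have h2 : ContDiffAt ℝ 2 f x := (hf.of_le (by norm_cast)).contDiffAt
  have h1 : DifferentiableAt ℝ (fderiv ℝ f) x :=
    (hf.fderiv_right (m := ∞) (by simp)).differentiable (by simp) x
  have e (k l : Ix) : pd k (pd l f) x = fderiv ℝ (fderiv ℝ f) x (bas k 1) (bas l 1) := by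
    rw [pd_fd ((sm_pd l hf).differentiable (by simp) x), pd_fd' hf,
      fderiv_clm_apply h1 (differentiableAt_const _)]
    simp
  rw [e, e]
  exact (h2.isSymmSndFDerivAt (by simp)) _ _

theorem pd_quad {u : V → ℝ} {c0 c1 c2 : ℝ}
    (h : ∀ t : ℝ, u (x + t • bas m 1) = c0 + t * c1 + t ^ 2 * c2) :
    pd m (fun x => (u x : ℂ)) x = c1 := by
  rw [pd]
  simp only [line_eq, h]
  have : HasDerivAt (fun t : ℝ => c0 + t * c1 + t ^ 2 * c2) c1 0 := by
    have := (((hasDerivAt_id (0 : ℝ)).mul_const c1).const_add c0).fun_add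
      (((hasDerivAt_id (0 : ℝ)).fun_pow 2).mul_const c2)
    simpa using this
  exact this.ofReal_comp.deriv

theorem md_bas (x : V) (m : Ix) : mdot x (bas m 1) = eta m * x m := by
  simp [mdot, bas]

theorem pd_be : pd m (fun z => (be z : ℂ)) x = (eta m * va m : ℝ) :=
  pd_quad (c0 := be x) (c2 := 0) fun t => by
    rw [be_add, be_smul, ← md_va (bas m 1), md_bas]; ring

theorem pd_co : pd m (fun z => (z n : ℂ)) x = (bas m 1 n : ℝ) :=
  pd_quad (c0 := x n) (c2 := 0) fun t => by simp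

/-- the derivative of the vector field -/
def kd (n m : Ix) (z : V) : ℝ :=
  2 * (eta n * va n) * z m + 2 * be z * bas n 1 m - 2 * (eta n * z n) * va m

theorem pd_cK : pd n (fun z => (cK va z m : ℂ)) x = kd n m x :=
  pd_quad (c0 := cK va x m) (c2 := cK va (bas n 1) m) fun t => by
    simp only [cK, md_add, md_add_l, md_smul, md_smul_l, Pi.sub_apply, Pi.smul_apply, Pi.add_apply,
      smul_eq_mul, kd, md_comm (bas n 1) x, md_bas x, md_bas va, md_va x]
    ring

theorem pd_kd : pd n (fun z => (kd n m z : ℂ)) x =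
    (4 * (eta n * va n) * bas n 1 m - 2 * eta n * va m : ℝ) :=
  pd_quad (c0 := kd n m x) (c2 := 0) fun t => by
    simp only [kd, be_add, be_smul, ← md_va (bas n 1), md_bas, Pi.smul_apply, Pi.add_apply,
      smul_eq_mul, show bas n 1 n = 1 by simp [bas]]
    ring

theorem sm_co (m : Ix) : ContDiff ℝ ∞ fun z : V => (z m : ℂ) := smooth_cx (by fun_prop)

theorem sm_be : ContDiff ℝ ∞ fun z : V => (be z : ℂ) := smooth_cx smooth_be

theorem sm_cK (m : Ix) : ContDiff ℝ ∞ fun z => (cK va z m : ℂ) :=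
  smooth_cx (by simp only [cK, Pi.sub_apply, Pi.smul_apply, smul_eq_mul]; fun_prop)

theorem sm_kd (n m : Ix) : ContDiff ℝ ∞ fun z => (kd n m z : ℂ) :=
  smooth_cx (by unfold kd; fun_prop)

theorem box_K (hf : ContDiff ℝ ∞ f) :
    box (Kc 4 f) = fun z => Kc 2 (box f) z + 4 * dv va f z := by
  funext x
  have e0 : Kc 4 f = fun z => -1 * ∑ m, (cK va z m : ℂ) * pd m f z := by
    funext z; simp only [Kc]; norm_num
  have s1 (m) := (sm_cK m).mul (sm_pd m hf)
  have e1 (n) : pd n (Kc 4 f) = fun z => -1 * ∑ m, ((kd n m z : ℂ) * pd m f z +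
      (cK va z m : ℂ) * pd n (pd m f) z) := by
    funext z
    rw [e0, pd_cmul _ (ContDiff.sum fun m _ => s1 m), pd_sum s1]
    simp only [pd_mul (sm_cK _) (sm_pd _ hf), pd_cK]
  have s2 (n m) := (sm_kd n m).mul (sm_pd m hf)
  have s3 (n m) := (sm_cK m).mul (sm_pd n (sm_pd m hf))
  have e2 (n) : pd n (pd n (Kc 4 f)) x = -1 * ∑ m,
      (((4 * (eta n * va n) * bas n 1 m - 2 * eta n * va m : ℝ) : ℂ) * pd m f x +
        2 * (kd n m x : ℂ) * pd n (pd m f) x + (cK va x m : ℂ) * pd m (pd n (pd n f)) x) := by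
    rw [e1, pd_cmul _ (ContDiff.sum fun m _ => (s2 n m).add (s3 n m)),
      pd_sum fun m => (s2 n m).add (s3 n m)]
    congr 1
    refine Finset.sum_congr rfl fun m _ => ?_
    rw [pd_add (s2 n m) (s3 n m), pd_mul (sm_kd n m) (sm_pd m hf),
      pd_mul (sm_cK m) (sm_pd n (sm_pd m hf)), pd_kd, pd_cK, pd_comm (sm_pd n hf) (m := m),
      show pd m (pd n f) = pd n (pd m f) from funext fun _ => pd_comm hf]
    ring
  have e3 (m) : pd m (box f) x = ∑ n, (eta n : ℂ) * pd m (pd n (pd n f)) x := by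
    have s (n) := sm_pd n (sm_pd n hf)
    rw [show box f = fun x => ∑ n, (eta n : ℂ) * pd n (pd n f) x from rfl,
      pd_sum fun n => contDiff_const.mul (s n)]
    simp only [pd_cmul _ (s _)]
  have c (m n) : pd m (pd n f) x = pd n (pd m f) x := pd_comm hf
  simp only [box, e2, Kc, e3, dv, Fin.sum_univ_four, kd, c 1 0, c 2 0, c 3 0, c 2 1, c 3 1, c 3 2,
    be_eq]
  simp [eta, o, va, bas]
  ring

end

end Vale.Agent.P352X.Sy
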