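import Vale.Agent.P352X.R.SYM.A
import Vale.Agent.P352X.Api3b
import Mathlib.Analysis.Calculus.LineDeriv.IntegrationByParts

/-!
# P352X, row SYM, part B: the divergence theorem on the forward cone (helper64)
-/

set_option linter.all false

open MeasureTheory Filter Topology Set
open scoped SchwartzMap ComplexConjugate ContDiff

namespace Vale.Agent.P352X.Sy

open Vale.Agent.P352.GF Vale.Agent.P352.BW Vale.Agent.P352.H246
open Vale.Agent.P352.H496 Vale.Agent.P352.H755 Vale.Agent.P352.H15 Ap

noncomputable section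

theorem sw_pd (m : Ix) {f : Fn} (hf : Sw f) : Sw (pd m f) := by
  rw [pd_fd' (sw_smooth hf)]
  exact sw_fderiv _ hf

theorem temp_co (m : Ix) : Function.HasTemperateGrowth fun z : V => z m :=
  (ContinuousLinearMap.proj (R := ℝ) (φ := fun _ : Ix => ℝ) m).hasTemperateGrowth

theorem sw_co (m : Ix) {f : Fn} (hf : Sw f) : Sw fun z => (z m : ℂ) * f z :=
  sw_rmul (temp_co m) hf

theorem sw_be {f : Fn} (hf : Sw f) : Sw fun z => (be z : ℂ) * f z :=
  sw_rmul beL.hasTemperateGrowth hf

/-- functions cut to positive times -/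
def cu (H : ℝ → ℝ) (k : ℝ) (p : V) : ℂ := if 0 < p o then (H (k * mu p) : ℂ) else 0

theorem meas_cu {H : ℝ → ℝ} (hH : Continuous H) (k : ℝ) : Measurable (cu H k) :=
  Measurable.ite (measurableSet_lt measurable_const (measurable_pi_apply o))
    (Complex.continuous_ofReal.comp (hH.comp (continuous_const.mul cont_mu))).measurable
    measurable_const

theorem norm_cu {H : ℝ → ℝ} {C : ℝ} (h : ∀ t, |H t| ≤ C) (k : ℝ) (p : V) : ‖cu H k p‖ ≤ C := by
  unfold cu
  split_ifs
  · simpa using h _
  · simpa using (abs_nonneg _).trans (h 0)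

theorem der_cu {H : ℝ → ℝ} (hH : Differentiable ℝ H) (h1 : ∀ t, t ≤ 1 → H t = 0) {k : ℝ}
    (hk : 0 ≤ k) (m : Ix) (p : V) : HasLineDerivAt ℝ (cu H k)
      (cu (deriv H) k p * (2 * k : ℝ) * (eta m * p m : ℝ)) p (bas m 1) := by
  have c0 : Continuous fun t : ℝ => (p + t • bas m 1) o := by fun_prop
  have c1 : HasDerivAt (fun t : ℝ => k * mu (p + t • bas m 1)) (2 * k * (eta m * p m)) 0 := by
    have := ((((hasDerivAt_id (0 : ℝ)).mul_const (2 * (eta m * p m))).const_add (mu p)).fun_add
      (((hasDerivAt_id (0 : ℝ)).fun_pow 2).mul_const (mu (bas m 1)))).const_mul k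
    refine (this.congr_deriv (by simp; ring)).congr_of_eventuallyEq (Eventually.of_forall fun t => ?_)
    simp only [mu, md_add, md_add_l, md_smul, md_smul_l, md_comm (bas m 1) p, md_bas p, id]
    ring
  by_cases h : 0 < p o
  · have e : ∀ᶠ t : ℝ in 𝓝 0, 0 < (p + t • bas m 1) o :=
      c0.continuousAt.eventually (lt_mem_nhds (by simpa using h))
    have d := ((hH (k * mu (p + (0 : ℝ) • bas m 1))).hasDerivAt.comp 0 c1).ofReal_comp
    refine HasDerivAt.congr_of_eventuallyEq ?_ (e.mono fun t ht => if_pos ht)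
    exact d.congr_deriv (by simp [cu, h, mul_assoc])
  · rw [cu, if_neg h, zero_mul, zero_mul]
    refine (hasDerivAt_const (0 : ℝ) (0 : ℂ)).congr_of_eventuallyEq ?_
    rcases (not_lt.1 h).lt_or_eq with h | h
    · exact (c0.continuousAt.eventually (gt_mem_nhds (by simpa using h))).mono fun t ht =>
        if_neg (not_lt.2 ht.le)
    · have : k * mu p < 1 := by
        have : mu p ≤ 0 := by
          rw [mu, mdot_eq, show p 0 = 0 from h]
          nlinarith [mul_self_nonneg (p 1), mul_self_nonneg (p 2), mul_self_nonneg (p 3)]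
        nlinarith
      refine (c1.continuousAt.eventually (gt_mem_nhds (by simpa using this))).mono fun t ht => ?_
      simp only [cu, h1 _ ht.le]
      simp

theorem div_zero {J : Ix → Fn} {W : Fn} (hJ : ∀ m, Sw (J m)) (hW : Integrable W)
    (h : ∀ p, ∑ m, (eta m * p m : ℝ) * J m p = mu p * W p) :
    ∫ p in Fc, ∑ m, pd m (J m) p = 0 := by
  obtain ⟨H, hs, h1, h2, -, h3⟩ := ex_step (one_lt_two (α := ℝ))
  have hd : Continuous (deriv H) := hs.continuous_deriv (by simp)
  have d1 (t) (ht : t < 1) : deriv H t = 0 := by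
    rw [EventuallyEq.deriv_eq (f := fun _ => 0) ((gt_mem_nhds ht).mono fun s hs => h1 s hs.le)]
    simp
  have d2 (t) (ht : 2 < t) : deriv H t = 0 := by
    rw [EventuallyEq.deriv_eq (f := fun _ => 1) ((lt_mem_nhds ht).mono fun s hs => h2 s hs.le)]
    simp
  obtain ⟨C, hC⟩ := (isCompact_Icc (a := (1 : ℝ)) (b := 2)).exists_bound_of_continuousOn
    hd.continuousOn
  have C0 : 0 ≤ C := (norm_nonneg _).trans (hC 1 (by norm_num))
  have b0 (t) : |deriv H t| ≤ C := by
    by_cases ht : t ∈ Icc (1 : ℝ) 2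
    · exact hC t ht
    · rcases not_and_or.1 ht with a | a
      · rwa [d1 t (not_le.1 a), abs_zero]
      · rwa [d2 t (not_le.1 a), abs_zero]
  have b1 (t) : |deriv H t * t| ≤ C * 2 := by
    by_cases ht : t ∈ Icc (1 : ℝ) 2
    · rw [abs_mul, abs_of_nonneg (by linarith [ht.1] : 0 ≤ t)]
      exact mul_le_mul (b0 t) ht.2 (by linarith [ht.1]) C0
    · rcases not_and_or.1 ht with a | a
      · rw [d1 t (not_le.1 a)]; simpa using C0
      · rw [d2 t (not_le.1 a)]; simpa using C0
  have bH (t) : |H t| ≤ 1 := abs_le.2 ⟨by linarith [(h3 t).1], (h3 t).2⟩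
  have iD : Integrable fun p => ∑ m, pd m (J m) p :=
    sw_int (sw_sum fun m _ => sw_pd m (hJ m))
  have mH (k) := (meas_cu hs.continuous k).aestronglyMeasurable (μ := volume)
  have mD (k) := (meas_cu hd k).aestronglyMeasurable (μ := volume)
  have i1 (k : ℝ) (m) : Integrable fun p =>
      cu (deriv H) k p * (2 * k : ℝ) * (eta m * p m : ℝ) * J m p := by
    have := ((sw_int (μ := volume) (sw_co m (hJ m))).const_mul ((2 * k * eta m : ℝ) : ℂ)).bdd_mul
      (mD k) (ae_of_all _ (norm_cu b0 k))
    refine this.congr (ae_of_all _ fun p => ?_)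
    push_cast; ring
  have i2 (k : ℝ) {F : Fn} (hF : Sw F) : Integrable fun p => cu H k p * F p :=
    (sw_int hF).bdd_mul (mH k) (ae_of_all _ (norm_cu bH k))
  have key (k : ℕ) : ∫ p, cu H k p * ∑ m, pd m (J m) p =
      -∫ p, cu (fun t => deriv H t * t) k p * 2 * W p := by
    simp only [Finset.mul_sum]
    rw [integral_finsetSum _ fun m _ => i2 k (sw_pd m (hJ m))]
    have e (m) : ∫ p, cu H k p * pd m (J m) p =
        -∫ p, cu (deriv H) k p * (2 * k : ℝ) * (eta m * p m : ℝ) * J m p :=
      integral_bilinear_hasLineDerivAt_right_eq_neg_left_of_integrable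
        (B := ContinuousLinearMap.mul ℝ ℂ) (v := bas m 1) (i1 k m) (i2 k (sw_pd m (hJ m)))
        (i2 k (hJ m)) (fun p _ => der_cu (hs.differentiable (by simp)) h1 k.cast_nonneg m p)
        fun p _ => by
          rw [pd_fd (sw_diff (hJ m) p)]
          exact (sw_diff (hJ m) p).hasFDerivAt.hasLineDerivAt _
    simp only [e, Finset.sum_neg_distrib]
    rw [← integral_finsetSum _ fun m _ => i1 k m]
    congr 2
    funext p
    simp only [mul_assoc (cu (deriv H) k p * _), ← Finset.mul_sum, h]
    unfold cu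
    split_ifs
    · push_cast; ring
    · simp
  have l1 : Tendsto (fun k : ℕ => ∫ p, cu H k p * ∑ m, pd m (J m) p) atTop
      (𝓝 (∫ p in Fc, ∑ m, pd m (J m) p)) := by
    rw [← integral_indicator meas_Fc]
    refine tendsto_integral_of_dominated_convergence _ (fun k => (mH k).mul iD.1) iD.norm
      (fun k => ae_of_all _ fun p => ?_) (ae_of_all _ fun p => tendsto_const_nhds.congr' ?_)
    · rw [norm_mul]
      exact mul_le_of_le_one_left (norm_nonneg _) (norm_cu bH _ _)
    · by_cases hp : p ∈ Fc
      · filter_upwards [(tendsto_natCast_atTop_atTop.atTop_mul_const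
          (show 0 < mu p from hp.1)).eventually_ge_atTop 2] with k hk
        rw [indicator_of_mem hp, cu, if_pos hp.2, h2 _ hk]; simp
      · refine Eventually.of_forall fun k => ?_
        rw [indicator_of_notMem hp]
        by_cases ho : 0 < p o
        · have : mu p ≤ 0 := not_lt.1 fun a => hp ⟨a, ho⟩
          simp only [cu]
          rw [h1 _ (by nlinarith [(k.cast_nonneg : (0 : ℝ) ≤ k)])]; simp
        · simp [cu, ho]
  have l2 : Tendsto (fun k : ℕ => ∫ p, cu (fun t => deriv H t * t) k p * 2 * W p) atTop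
      (𝓝 (∫ p : V, (0 : ℂ))) := by
    refine tendsto_integral_of_dominated_convergence _
      (fun k => ((meas_cu (hd.mul continuous_id) k).aestronglyMeasurable.mul_const 2).mul hW.1)
      (hW.norm.const_mul (C * 2 * 2))
      (fun k => ae_of_all _ fun p => ?_) (ae_of_all _ fun p => tendsto_const_nhds.congr' ?_)
    · rw [norm_mul, norm_mul, Complex.norm_two]
      gcongr
      exact norm_cu b1 _ _
    · by_cases hp : 0 < mu p
      · filter_upwards [(tendsto_natCast_atTop_atTop.atTop_mul_const hp).eventually_gt_atTop 2]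
          with k hk
        simp [cu, d2 _ hk]
      · refine Eventually.of_forall fun k => ?_
        have := d1 (k * mu p) (by nlinarith [(k.cast_nonneg : (0 : ℝ) ≤ k)])
        simp [cu, this]
  simp only [key] at l1
  simpa using tendsto_nhds_unique l1 l2.neg

/-- the flux along `a` -/
theorem flux {S : Fn} (hS : Sw S) : IntegrableOn (fun k => S (pc k 0)) Pp ∧
    ∫ p in Fc, fderiv ℝ S p va = -∫ k in Pp, S (pc k 0) := by
  have i1 : IntegrableOn (fun p => fderiv ℝ S p va) Fc := (sw_int (sw_fderiv va hS)).integrableOn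
  have i2 : IntegrableOn S Fc := (sw_int hS).integrableOn
  have j1 := sc_pc.integrable.2 i1
  have j2 := sc_pc.integrable.2 i2
  have e : ∀ᵐ k ∂volume.restrict Pp, ∫ t in Ioi 0, fderiv ℝ S (pc k t) va = -S (pc k 0) := by
    filter_upwards [j1.prod_right_ae, j2.prod_right_ae] with k a b
    have d (t : ℝ) : HasDerivAt (fun t => S (pc k t)) (fderiv ℝ S (pc k t) va) t := by
      have e (t) : pc k t = t • va + pc k 0 := null_ext (by simp) (by simp) (by simp)
      refine (sw_diff hS _).hasFDerivAt.comp_hasDerivAt t ?_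
      rw [show pc k = fun t => t • va + pc k 0 from funext e]
      simpa using ((hasDerivAt_id t).smul_const va).add_const (pc k 0)
    rw [integral_Ioi_of_hasDerivAt_of_tendsto' (fun t _ => d t) a
      (tendsto_zero_of_hasDerivAt_of_integrableOn_Ioi (fun t _ => d t) a b), zero_sub]
  refine ⟨?_, by rw [integral_Fc i1, integral_congr_ae e, integral_neg]⟩
  exact (j1.integral_prod_left.congr e).neg.congr (ae_of_all _ fun k => neg_neg _)

theorem flux_ne {F : Fn} (hF : Sw F) (h0 : F 0 ≠ 0) :
    ∫ p in Fc, fderiv ℝ (fun p => conj (F p) * F p) p va ≠ 0 := by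
  obtain ⟨i, e⟩ := flux (sw_mul (sw_temp (sw_conj hF)) hF)
  rw [e, neg_ne_zero]
  simp only [Complex.conj_mul', ← Complex.ofReal_pow, integral_complex_ofReal] at i ⊢
  have i' : IntegrableOn (fun k => ‖F (pc k 0)‖ ^ 2) Pp := i.re
  refine Complex.ofReal_ne_zero.2 (ne_of_gt ((setIntegral_pos_iff_support_of_nonneg_ae
    (ae_of_all _ fun k => sq_nonneg _) i').2 ?_))
  have c : ContinuousOn (fun k : P3 => F (pc k 0)) Pp := by
    refine (sw_cont hF).comp_continuousOn (plE.symm.continuous.comp_continuousOn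
      (f := fun k : P3 => ((0 + d2 k.2 k.2 / (2 * k.1), k.2), k.1)) ?_)
    have : ContinuousOn (fun k : P3 => d2 k.2 k.2 / (2 * k.1)) Pp := ContinuousOn.div (by fun_prop)
      (by fun_prop) fun (k : P3) (hk : 0 < k.1) => by positivity
    exact ((continuousOn_const.add this).prodMk continuousOn_snd).prodMk continuousOn_fst
  have ho : IsOpen Pp := isOpen_lt continuous_const continuous_fst
  have op := c.isOpen_inter_preimage ho (isOpen_compl_singleton (x := (0 : ℂ)))
  have t : Tendsto (fun e : ℝ => F (pt 0 e 0)) (𝓝[>] 0) (𝓝 (F 0)) := by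
    have : Continuous fun e : ℝ => F (pt 0 e 0) := (sw_cont hF).comp (by fun_prop)
    have := this.tendsto 0
    rw [show pt 0 0 0 = 0 from null_ext (by simp) (by simp) (by simp)] at this
    exact this.mono_left nhdsWithin_le_nhds
  obtain ⟨e, h1, h2⟩ := ((t.eventually_ne h0).and self_mem_nhdsWithin).exists
  refine (op.measure_pos volume ⟨(e, 0), h2, ?_⟩).trans_le (measure_mono fun k hk => ⟨?_, hk.1⟩)
  · simpa [pc, d2] using h1
  · simpa using hk.2

end

end Vale.Agent.P352X.Sy
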